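import Vale.Agent.H82.Borsuk63.SrgGeneric

/-!
# Memory-light versions of the bit-matrix checks of `Vale.Agent.H82.Srg`

The checks `symAll` and `checkAll` of `SrgGeneric` read the bit `416 * u + v` of the matrix number
`m` by shifting the whole number, once for every pair `(u, v)`; the kernel keeps all these shifted
copies in its cache, which costs several gigabytes for `416 * 416` bits.  Here every row
`rowBits m u` (416 bits) is extracted once and the bits are read from the row.  The light checks
are proved equal to the original ones, so the original soundness theorems apply unchanged.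
-/

namespace Vale.Agent.H53.B63

open Vale.Agent.H82.Srg

/-- Row `u` of the bit matrix `m`: the bits `416 * u, …, 416 * u + 415`. -/
def rowBits (m u : ℕ) : ℕ := (m >>> (416 * u)) &&& (2 ^ 416 - 1)

theorem bit_rowBits (m u v : ℕ) (hv : v < 416) : bit (rowBits m u) v = bit m (416 * u + v) := by
  rw [bit_eq_toNat, bit_eq_toNat]
  congr 1
  unfold rowBits
  rw [Nat.testBit_and, Nat.testBit_shiftRight, Nat.testBit_two_pow_sub_one]
  simp [hv]

theorem allB_of_forall (p : ℕ → Bool) (n : ℕ) (h : ∀ k, k < n → p k = true) : allB p n = true := by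
  induction n with
  | zero => rfl
  | succ n ih =>
    rw [allB_succ, Bool.and_eq_true]
    exact ⟨ih (fun k hk => h k (by omega)), h n (by omega)⟩

theorem allB_congr (p q : ℕ → Bool) (n : ℕ) (h : ∀ k, k < n → p k = q k) : allB p n = allB q n := by
  induction n with
  | zero => rfl
  | succ n ih =>
    rw [allB_succ, allB_succ, ih (fun k hk => h k (by omega)), h n (by omega)]

/-- Evaluate `x` to a literal, then continue with `k x` (number-valued twin of `forceThen`). -/
noncomputable def forceNat (x : ℕ) (k : ℕ → ℕ) : ℕ :=
  @Nat.rec (fun _ => ℕ) 0 (fun y _ => k y) (x + 1)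

theorem forceNat_eq (x : ℕ) (k : ℕ → ℕ) : forceNat x k = k x := rfl

/-! ### Symmetry -/

/-- Symmetry check reading the bits from extracted rows. -/
noncomputable def symLight (m : ℕ) : Bool :=
  allB (fun u => forceThen (rowBits m u) (fun r =>
    allB (fun v => Nat.beq (bit r v) (bit (rowBits m v) u)) 416)) 416

theorem symLight_eq (m : ℕ) : symLight m = symAll m := by
  unfold symLight symAll
  refine allB_congr _ _ 416 (fun u hu => ?_)
  rw [forceThen_eq]
  refine allB_congr _ _ 416 (fun v hv => ?_)
  rw [bit_rowBits m u v hv, bit_rowBits m v u hu]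

/-! ### The strongly regular identity -/

/-- Spread of a row literal `r` into lanes of 16 bits. -/
noncomputable def rowSpreadL (r n : ℕ) : ℕ :=
  @Nat.rec (fun _ => ℕ) 0 (fun v ih => ih + bit r v * 65536 ^ v) n

theorem rowSpreadL_succ (r n : ℕ) :
    rowSpreadL r (n + 1) = rowSpreadL r n + bit r n * 65536 ^ n := rfl

theorem rowSpreadL_eq (m w r n : ℕ) (h : ∀ v, v < n → bit r v = bit m (416 * w + v)) :
    rowSpreadL r n = rowSpread m w n := by
  induction n with
  | zero => rfl
  | succ n ih =>
    rw [rowSpreadL_succ, rowSpread_succ, ih (fun v hv => h v (by omega)), h n (by omega)]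

/-- All the row spreads packed into one number, each row being extracted once. -/
noncomputable def spAllL (m n : ℕ) : ℕ :=
  @Nat.rec (fun _ => ℕ) 0
    (fun w ih => ih + forceNat (rowBits m w) (fun r => rowSpreadL r 416) <<< (6656 * w)) n

theorem spAllL_succ (m n : ℕ) :
    spAllL m (n + 1)
      = spAllL m n + forceNat (rowBits m n) (fun r => rowSpreadL r 416) <<< (6656 * n) := rfl

theorem spAllL_eq (m n : ℕ) : spAllL m n = spAll m n := by
  induction n with
  | zero => rfl
  | succ n ih =>
    rw [spAllL_succ, spAll_succ, ih, forceNat_eq,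
      rowSpreadL_eq m n (rowBits m n) 416 (fun v hv => bit_rowBits m n v hv)]

/-- `sumS` with the bits of the row `u` read from a row literal `r`. -/
noncomputable def sumSL (r sp n : ℕ) : ℕ :=
  @Nat.rec (fun _ => ℕ) 0
    (fun w ih => @Nat.rec (fun _ => ℕ) ih (fun _ _ => ih + rowOf sp w) (bit r w)) n

theorem sumSL_succ (r sp n : ℕ) :
    sumSL r sp (n + 1)
      = @Nat.rec (fun _ => ℕ) (sumSL r sp n) (fun _ _ => sumSL r sp n + rowOf sp n) (bit r n) :=
  rfl

theorem sumS_succ' (m sp u n : ℕ) :
    sumS m sp u (n + 1)
      = @Nat.rec (fun _ => ℕ) (sumS m sp u n) (fun _ _ => sumS m sp u n + rowOf sp n)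
          (bit m (416 * u + n)) :=
  rfl

theorem sumSL_eq (m sp u r n : ℕ) (h : ∀ w, w < n → bit r w = bit m (416 * u + w)) :
    sumSL r sp n = sumS m sp u n := by
  induction n with
  | zero => rfl
  | succ n ih =>
    rw [sumSL_succ, sumS_succ', ih (fun w hw => h w (by omega)), h n (by omega)]

/-- The check of the strongly regular identity for the row `u`, with the row extracted once. -/
noncomputable def checkUL (m sp u : ℕ) : Bool :=
  forceThen (rowBits m u) (fun r =>
    Nat.beq (sumSL r sp 416)
      (80 * 65536 ^ u + 16 * rowOf sp u + 20 * ((2 ^ 6656 - 1) / 65535)))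

theorem checkUL_eq (m sp u : ℕ) : checkUL m sp u = checkU m sp u := by
  unfold checkUL checkU
  rw [forceThen_eq, sumSL_eq m sp u (rowBits m u) 416 (fun w hw => bit_rowBits m u w hw)]

/-- The full check of the strongly regular identity, memory-light. -/
noncomputable def checkAllL (m : ℕ) : Bool :=
  forceThen (spAllL m 416) (fun sp => allB (checkUL m sp) 416)

theorem checkAllL_eq (m : ℕ) : checkAllL m = checkAll m := by
  rw [checkAll_eq]
  unfold checkAllL
  rw [forceThen_eq, spAllL_eq]
  exact allB_congr _ _ 416 (fun u _ => checkUL_eq m (spAll m 416) u)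

end Vale.Agent.H53.B63
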