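import Vale.Agent.H14.Borsuk63.Data
import Vale.Agent.H53.B63.Light
import Vale.Agent.H80.Borsuk63.Eig

/-!
# Symmetry of the bit matrix of `Vale.Agent.H14.Borsuk63.Data`, memory-light kernel check

The import of `Vale.Agent.H80.Borsuk63.Eig` is not used by the proof: it only makes the build
run the kernel-heavy modules of the Borsuk63 development one after the other.
-/

namespace Vale.Agent.H53.B63

open Vale.Agent.H14.Borsuk63 Vale.Agent.H82.Srg

theorem symLight_big : symLight big = true := by decide +kernel

theorem symAll_big : symAll big = true := by
  rw [← symLight_eq]
  exact symLight_big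

end Vale.Agent.H53.B63
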